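import Vale.Agent.P130.Lebesgue.Coherent.Tools

/-!
# The transform of a phase made of tubes

Tubes with disjoint positions carry branches; when the multiplier set of every tube is almost
invariant under `m` and the dilated target intervals are disjoint, the `m`-th harmonic of the
phase has transform `√N A e (m σ)` in mean square, with `A` and `σ` independent of `m`.
-/

namespace Vale.Agent.P130.Lebesgue.Coherent

open MeasureTheory Finset

/-- Tubes with their branches and target intervals `[lo, lo + lam)`. -/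
structure Layout where
  r : ℕ
  P : ℕ
  K : ℕ
  N : ℕ
  G : Fin r → Finset ℤ
  c : Fin r → ℤ
  s : Fin r → ℕ
  kk : Fin r → ℕ
  lam : Fin r → ℝ
  lo : Fin r → ℝ
  Φ : Fin r → ℕ → ℝ
  σ : Fin r → ℝ → ℝ

namespace Layout

variable (D : Layout)

/-- The pairs of a tube and a multiplier. -/
def pairs : Finset (Σ _ : Fin D.r, ℤ) := Finset.univ.sigma D.G

/-- The number of samples of a branch. -/
noncomputable def len (k : Fin D.r) : ℕ := ⌈D.lam k * D.N⌉₊

/-- The samples. -/
noncomputable def samples : Finset (Σ _ : (Σ _ : Fin D.r, ℤ), ℕ) :=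
  D.pairs.sigma fun p => Finset.range (D.len p.1)

/-- The position of a sample. -/
def at' (x : Σ _ : (Σ _ : Fin D.r, ℤ), ℕ) : ℤ :=
  tubePos D.P (D.c x.1.1) (D.s x.1.1) x.1.2 x.2

/-- The indicator of the target set of a pair. -/
noncomputable def hitP (p : Σ _ : Fin D.r, ℤ) (u : ℝ) : ℝ :=
  hit ((p.2 * ((D.P : ℤ) * D.K) : ℤ) : ℝ) (D.lo p.1) (D.lo p.1 + D.lam p.1) u

/-- The phase. -/
noncomputable def psi (t : ℕ) : ℝ :=
  ∑ x ∈ D.samples, if (D.at' x).toNat = t then D.Φ x.1.1 x.2 else 0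

/-- The common modulating factor. -/
noncomputable def amp (u : ℝ) : ℂ :=
  e (∑ p ∈ D.pairs, D.hitP p u * (-((D.c p.1 : ℝ) * u)))

/-- The phase of the transform. -/
noncomputable def sig (u : ℝ) : ℝ :=
  ∑ p ∈ D.pairs, D.hitP p u *
    (D.σ p.1 (p.2 * D.s p.1 * D.P * u) - D.s p.1 * p.2 * u)

theorem measurable_hitP (p : Σ _ : Fin D.r, ℤ) : Measurable (D.hitP p) := measurable_hit _ _ _

theorem measurable_amp : Measurable D.amp :=
  measurable_e.comp (Finset.measurable_sum _ fun p _ =>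
    (D.measurable_hitP p).mul (measurable_const_mul _).neg)

theorem measurable_sig (hσ : ∀ k, Measurable (D.σ k)) : Measurable D.sig :=
  Finset.measurable_sum _ fun p _ => (D.measurable_hitP p).mul
    (((hσ p.1).comp (measurable_const_mul _)).sub (measurable_const_mul _))

theorem norm_amp (u : ℝ) : ‖D.amp u‖ = 1 := norm_e _

theorem hitP_nonneg (p : Σ _ : Fin D.r, ℤ) (u : ℝ) : 0 ≤ D.hitP p u := hit_nonneg _ _ _ _

theorem hitP_le_one (p : Σ _ : Fin D.r, ℤ) (u : ℝ) : D.hitP p u ≤ 1 := hit_le_one _ _ _ _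

/-- The branch of a pair in harmonic `m`. -/
noncomputable def branch (m : ℤ) (p : Σ _ : Fin D.r, ℤ) (u : ℝ) : ℂ :=
  ∑ l ∈ Finset.range (D.len p.1), e (m * D.Φ p.1 l) * e (-((D.at' ⟨p, l⟩ : ℝ) * u))

/-- The target of a pair in harmonic `m`. -/
noncomputable def target (m : ℤ) (p : Σ _ : Fin D.r, ℤ) (u : ℝ) : ℂ :=
  (D.hitP p u : ℂ) * ((Real.sqrt D.N : ℂ) * (e (-((D.c p.1 : ℝ) * u)) *
    e (m * (D.σ p.1 (p.2 * D.s p.1 * D.P * u) - D.s p.1 * p.2 * u))))

theorem hitP_cases (p : Σ _ : Fin D.r, ℤ) (u : ℝ) : D.hitP p u = 0 ∨ D.hitP p u = 1 := by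
  unfold hitP hit
  simp only [Set.indicator_apply]
  split_ifs <;> simp

theorem measurable_branch (m : ℤ) (p : Σ _ : Fin D.r, ℤ) : Measurable (D.branch m p) := by
  unfold branch
  exact Finset.measurable_sum _ fun l _ => measurable_const.mul
    (measurable_e.comp (measurable_const_mul _).neg)

theorem measurable_target (hσ : ∀ k, Measurable (D.σ k)) (m : ℤ) (p : Σ _ : Fin D.r, ℤ) :
    Measurable (D.target m p) := by
  unfold target
  exact (Complex.measurable_ofReal.comp (D.measurable_hitP p)).mul (measurable_const.mul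
    ((measurable_e.comp (measurable_const_mul _).neg).mul (measurable_e.comp (measurable_const.mul
      (((hσ p.1).comp (measurable_const_mul _)).sub (measurable_const_mul _))))))

theorem norm_branch_le (m : ℤ) (p : Σ _ : Fin D.r, ℤ) (u : ℝ) :
    ‖D.branch m p u‖ ≤ D.len p.1 :=
  (norm_sum_le _ _).trans (le_of_eq (by simp [norm_e]))

theorem norm_target (m : ℤ) (p : Σ _ : Fin D.r, ℤ) (u : ℝ) :
    ‖D.target m p u‖ = D.hitP p u * Real.sqrt D.N := by
  rw [target, norm_mul, norm_mul, norm_mul, norm_e, norm_e, Complex.norm_real, Complex.norm_real,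
    Real.norm_eq_abs, Real.norm_eq_abs, abs_of_nonneg (D.hitP_nonneg p u),
    abs_of_nonneg (Real.sqrt_nonneg _)]
  ring

variable {D}

/-- The hypotheses on a layout in harmonic `m`. -/
structure Good (D : Layout) (m : ℤ) (η : ℝ) : Prop where
  hm : m ≠ 0
  hP : 0 < D.P
  hK : 0 < D.K
  hN : 0 < D.N
  hs : ∀ k, 0 < D.s k
  hkk : ∀ k, D.s k * D.kk k = D.K
  hG : ∀ k, ∀ f ∈ D.G k, f ≠ 0
  hlam : ∀ k, 0 ≤ D.lam k
  hlo : ∀ k, 0 ≤ D.lo k
  hhi : ∀ k, D.lo k + D.lam k ≤ 1
  hσ : ∀ k, Measurable (D.σ k)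
  hrange : ∀ x ∈ D.samples, 0 ≤ D.at' x ∧ D.at' x < D.N
  hinj : Set.InjOn D.at' D.samples
  hdisj : ∀ᵐ u : ℝ, ∀ p ∈ D.pairs, ∀ q ∈ D.pairs, D.hitP p u = 1 → D.hitP q u = 1 → p = q
  hper : ∀ k, Function.Periodic
    (branchTarget (D.kk k) (D.lo k) (D.lo k + D.lam k) D.N (D.σ k) m) 1
  hbranch : ∀ k, ∫ w in (0 : ℝ)..1,
    ‖(∑ l ∈ Finset.range (D.len k), e (m * D.Φ k l - l * w)) -
      branchTarget (D.kk k) (D.lo k) (D.lo k + D.lam k) D.N (D.σ k) m w‖ ^ 2
      ≤ η / ((D.pairs.card : ℝ) + 1) ^ 2 * D.N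
  hbad : ∑ k, (((D.G k).filter fun g => m * g ∉ D.G k).card : ℝ) * D.lam k ≤ η
  hcover : 1 - η ≤ ∑ k, ((D.G k).card : ℝ) * D.lam k
  hsmall : (D.pairs.card : ℝ) ≤ η * D.N

theorem sum_pairs (F : Fin D.r → ℤ → ℝ) :
    ∑ p ∈ D.pairs, F p.1 p.2 = ∑ k, ∑ g ∈ D.G k, F k g :=
  Finset.sum_sigma _ _ _

theorem integral_hitP {m : ℤ} {η : ℝ} (h : Good D m η) {p : Σ _ : Fin D.r, ℤ} (hp : p ∈ D.pairs) :
    ∫ u in (0 : ℝ)..1, D.hitP p u = D.lam p.1 := by
  have hg := h.hG p.1 p.2 (Finset.mem_sigma.1 hp).2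
  have hPK : ((D.P : ℤ) * D.K) ≠ 0 := by
    have := h.hP; have := h.hK; positivity
  show ∫ u in (0 : ℝ)..1, hit _ _ _ u = _
  rw [integral_hit (mul_ne_zero hg hPK) (h.hlo _) (le_add_of_nonneg_right (h.hlam _)) (h.hhi _)]
  ring

/-- At most one target at almost every point. -/
theorem hit_sum_cases {m : ℤ} {η : ℝ} (h : Good D m η) :
    ∀ᵐ u : ℝ, ∀ S ⊆ D.pairs, (∀ p ∈ S, D.hitP p u = 0) ∨
      ∃ p ∈ S, D.hitP p u = 1 ∧ ∀ q ∈ S, q ≠ p → D.hitP q u = 0 := by
  filter_upwards [h.hdisj] with u hu S hS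
  by_cases hex : ∀ p ∈ S, D.hitP p u = 0
  · exact Or.inl hex
  · push Not at hex
    obtain ⟨p, hp, hpne⟩ := hex
    have hp1 := (D.hitP_cases p u).resolve_left hpne
    refine Or.inr ⟨p, hp, hp1, fun q hq hqp => (D.hitP_cases q u).resolve_right fun hq1 => hqp ?_⟩
    exact hu q (hS hq) p (hS hp) hq1 hp1

/-- A pair moved by `m`. -/
def move (m : ℤ) (p : Σ _ : Fin D.r, ℤ) : Σ _ : Fin D.r, ℤ := ⟨p.1, m * p.2⟩

theorem branch_move_sub_target {m : ℤ} {η : ℝ} (h : Good D m η) (p : Σ _ : Fin D.r, ℤ) (u : ℝ) :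
    D.branch m (move m p) u - D.target m p u =
      e (-(((D.c p.1 : ℝ) + D.s p.1 * ((m : ℝ) * p.2)) * u)) *
        ((∑ l ∈ Finset.range (D.len p.1),
            e (m * D.Φ p.1 l - l * (((D.s p.1 : ℤ) * (m * p.2) * D.P : ℤ) * u))) -
          branchTarget (D.kk p.1) (D.lo p.1) (D.lo p.1 + D.lam p.1) D.N (D.σ p.1) m
            (((D.s p.1 : ℤ) * (m * p.2) * D.P : ℤ) * u)) := by
  have hm : (m : ℝ) ≠ 0 := by exact_mod_cast h.hm
  rw [mul_sub, Finset.mul_sum]
  congr 1
  · refine Finset.sum_congr rfl fun l _ => ?_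
    simp only [move]
    rw [← e_add, ← e_add]
    congr 1
    simp only [at', tubePos]
    push_cast
    ring
  · rw [branchTarget, target, hitP, hit]
    have e1 : ((((D.s p.1 : ℤ) * (m * p.2) * D.P : ℤ) : ℝ) * u) / m =
        (p.2 : ℝ) * D.s p.1 * D.P * u := by
      push_cast
      field_simp
    have e2 : (D.kk p.1 : ℝ) * ((p.2 : ℝ) * D.s p.1 * D.P * u) =
        ((p.2 * ((D.P : ℤ) * D.K) : ℤ) : ℝ) * u := by
      have hk : (D.s p.1 : ℝ) * D.kk p.1 = D.K := by exact_mod_cast h.hkk p.1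
      push_cast
      rw [← hk]
      ring
    rw [e1, e2]
    simp only [Set.indicator_apply]
    split_ifs with hc
    · rw [Complex.ofReal_one, one_mul, mul_left_comm (e _) (Real.sqrt _ : ℂ), ← e_add, ← e_add]
      congr 2
      ring
    · simp

theorem good_err {m : ℤ} {η : ℝ} (h : Good D m η) {p : Σ _ : Fin D.r, ℤ} (hp : p ∈ D.pairs) :
    ∫ u in (0 : ℝ)..1, ‖D.branch m (move m p) u - D.target m p u‖ ^ 2 ≤
      η / ((D.pairs.card : ℝ) + 1) ^ 2 * D.N := by
  set F : ℝ → ℝ := fun w => ‖(∑ l ∈ Finset.range (D.len p.1), e (m * D.Φ p.1 l - l * w)) -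
      branchTarget (D.kk p.1) (D.lo p.1) (D.lo p.1 + D.lam p.1) D.N (D.σ p.1) m w‖ ^ 2 with hF
  have hd : ((D.s p.1 : ℤ) * (m * p.2) * D.P) ≠ 0 := by
    have := h.hs p.1
    have := h.hP
    exact mul_ne_zero (mul_ne_zero (by positivity) (mul_ne_zero h.hm
      (h.hG p.1 p.2 (Finset.mem_sigma.1 hp).2))) (by positivity)
  have heq : ∀ u : ℝ, ‖D.branch m (move m p) u - D.target m p u‖ ^ 2 =
      F (((D.s p.1 : ℤ) * (m * p.2) * D.P : ℤ) * u) := fun u => by
    rw [branch_move_sub_target h, norm_mul, norm_e, one_mul]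
  simp only [heq]
  have hper : Function.Periodic F 1 := fun w => by
    simp only [hF, h.hper p.1 w]
    congr 3
    refine Finset.sum_congr rfl fun l _ => ?_
    rw [show (m : ℝ) * D.Φ p.1 l - l * (w + 1) = (m : ℝ) * D.Φ p.1 l - l * w + ((-(l : ℤ) : ℤ) : ℝ)
      by push_cast; ring, e_add, e_int, mul_one]
  have hbt : Measurable (branchTarget (D.kk p.1) (D.lo p.1) (D.lo p.1 + D.lam p.1) D.N (D.σ p.1) m) := by
    unfold branchTarget
    simp only [Set.indicator_apply]
    exact Measurable.ite ((measurable_fract.comp ((measurable_id.div_const _).const_mul _))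
      measurableSet_Ico) (measurable_const.mul (measurable_e.comp
        (((h.hσ p.1).comp (measurable_id.div_const _)).const_mul _))) measurable_const
  have hmeas : Measurable F := by
    refine (((Finset.measurable_sum _ fun l _ => measurable_e.comp
      (measurable_const.sub (measurable_const_mul _))).sub hbt).norm).pow_const 2
  have hbd : ∀ w, |F w| ≤ ((D.len p.1 : ℝ) + Real.sqrt D.N) ^ 2 := fun w => by
    rw [abs_of_nonneg (sq_nonneg _)]
    refine pow_le_pow_left₀ (norm_nonneg _) ((norm_sub_le _ _).trans (add_le_add ?_ ?_)) 2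
    · exact (norm_sum_le _ _).trans (le_of_eq (by simp [norm_e]))
    · rw [branchTarget, Set.indicator_apply]
      split_ifs
      · rw [norm_mul, norm_e, mul_one, Complex.norm_real, Real.norm_eq_abs,
          abs_of_nonneg (Real.sqrt_nonneg _)]
      · rw [norm_zero]; exact Real.sqrt_nonneg _
  rw [integral_comp_dilate hper hmeas hbd hd]
  exact h.hbranch p.1

/-- The pairs whose multiplier is `m` times a multiplier. -/
noncomputable def bad (D : Layout) (m : ℤ) : Finset (Σ _ : Fin D.r, ℤ) :=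
  D.pairs.filter fun p => p.2 ∉ (D.G p.1).image (m * ·)

theorem card_bad_fibre {m : ℤ} (hm : m ≠ 0) (G : Finset ℤ) :
    (G.filter fun f => f ∉ G.image (m * ·)).card = (G.filter fun g => m * g ∉ G).card := by
  have h1 := Finset.card_filter_add_card_filter_not (s := G) (fun f => f ∈ G.image (m * ·))
  have h2 := Finset.card_filter_add_card_filter_not (s := G) (fun g => m * g ∈ G)
  have h3 : (G.filter fun f => f ∈ G.image (m * ·)).card = (G.filter fun g => m * g ∈ G).card := by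
    rw [show (G.filter fun f => f ∈ G.image (m * ·)) = (G.filter fun g => m * g ∈ G).image (m * ·) by
      ext f
      simp only [Finset.mem_filter, Finset.mem_image]
      constructor
      · rintro ⟨hf, g, hg, rfl⟩
        exact ⟨g, ⟨hg, hf⟩, rfl⟩
      · rintro ⟨g, ⟨hg, hf⟩, rfl⟩
        exact ⟨hf, g, hg, rfl⟩,
      Finset.card_image_of_injective _ (mul_right_injective₀ hm)]
  omega

theorem len_bounds {m : ℤ} {η : ℝ} (h : Good D m η) (k : Fin D.r) :
    D.lam k * D.N ≤ D.len k ∧ (D.len k : ℝ) ≤ D.lam k * D.N + 1 :=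
  ⟨Nat.le_ceil _, (Nat.ceil_lt_add_one (mul_nonneg (h.hlam k) (Nat.cast_nonneg _))).le⟩

theorem parseval_samples {m : ℤ} {η : ℝ} (h : Good D m η) (S : Finset (Σ _ : Fin D.r, ℤ))
    (hS : S ⊆ D.pairs) :
    ∫ u in (0 : ℝ)..1, ‖∑ p ∈ S, D.branch m p u‖ ^ 2 = ∑ p ∈ S, (D.len p.1 : ℝ) := by
  classical
  have hsub : (S.sigma fun p => Finset.range (D.len p.1)) ⊆ D.samples := fun x hx => by
    rw [Finset.mem_sigma] at hx
    exact Finset.mem_sigma.2 ⟨hS hx.1, hx.2⟩
  have e : ∀ u : ℝ, ∑ p ∈ S, D.branch m p u = ∑ x ∈ S.sigma fun p => Finset.range (D.len p.1),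
      e (m * D.Φ x.1.1 x.2) * Lebesgue.e (-((D.at' x : ℝ) * u)) := fun u => by
    rw [Finset.sum_sigma]; rfl
  simp only [e]
  rw [parseval _ _ (h.hinj.mono (Finset.coe_subset.2 hsub)), Finset.sum_sigma]
  exact Finset.sum_congr rfl fun p _ => by simp [norm_e]

theorem main_bound {m : ℤ} {η : ℝ} (hη : 0 ≤ η) (h : Good D m η) :
    ∫ u in (0 : ℝ)..1, ‖(∑ t ∈ Finset.range D.N, e (m * D.psi t - t * u)) -
        (Real.sqrt D.N : ℂ) * D.amp u * e (m * D.sig u)‖ ^ 2 ≤ 30 * η * D.N := by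
  classical
  set S₁ := D.pairs.filter fun p => m * p.2 ∈ D.G p.1 with hS₁
  set S₂ := D.pairs.filter fun p => ¬(m * p.2 ∈ D.G p.1) with hS₂
  set B := bad D m with hB
  set img := D.samples.image fun x => (D.at' x).toNat with himg
  set rest := Finset.range D.N \ img with hrest
  have hsub1 : S₁ ⊆ D.pairs := Finset.filter_subset _ _
  have hsub2 : S₂ ⊆ D.pairs := Finset.filter_subset _ _
  have htoNat : Set.InjOn (fun x => (D.at' x).toNat) D.samples := fun x hx y hy he => by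
    refine h.hinj hx hy ?_
    have hx' : (0 : ℤ) ≤ D.at' x := (h.hrange x hx).1
    have hy' : (0 : ℤ) ≤ D.at' y := (h.hrange y hy).1
    simp only at he
    omega
  have himgsub : img ⊆ Finset.range D.N := fun t ht => by
    obtain ⟨x, hx, rfl⟩ := Finset.mem_image.1 ht
    have := h.hrange x hx
    simp only [Finset.mem_range]
    omega
  -- the five errors
  set T₁ : ℝ → ℂ := fun u => ∑ p ∈ S₁, (D.branch m (move m p) u - D.target m p u) with hT₁
  set T₂ : ℝ → ℂ := fun u => ∑ p ∈ B, D.branch m p u with hT₂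
  set T₃ : ℝ → ℂ := fun u => ∑ t ∈ rest, e (m * D.psi t) * e (-(((t : ℤ) : ℝ) * u)) with hT₃
  set T₄ : ℝ → ℂ := fun u => ∑ p ∈ S₂, D.target m p u with hT₄
  set T₅ : ℝ → ℂ := fun u =>
    ((1 - ∑ p ∈ D.pairs, D.hitP p u : ℝ) : ℂ) * (Real.sqrt D.N : ℂ) with hT₅
  have hsum : ∀ u : ℝ, ∑ t ∈ Finset.range D.N, e (m * D.psi t - t * u) =
      (∑ p ∈ D.pairs, D.branch m p u) + T₃ u := by
    intro u
    have hterm : ∀ t : ℕ, e ((m : ℝ) * D.psi t - (t : ℝ) * u) =
        e (m * D.psi t) * e (-(((t : ℤ) : ℝ) * u)) := fun t => by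
      rw [← e_add]; push_cast; ring_nf
    simp only [hterm]
    rw [← Finset.sum_sdiff himgsub, add_comm]
    congr 1
    rw [himg, Finset.sum_image htoNat, samples, Finset.sum_sigma]
    refine Finset.sum_congr rfl fun p hp => Finset.sum_congr rfl fun l hl => ?_
    have hx : (⟨p, l⟩ : Σ _ : (Σ _ : Fin D.r, ℤ), ℕ) ∈ D.samples := Finset.mem_sigma.2 ⟨hp, hl⟩
    have hpsi : D.psi (D.at' ⟨p, l⟩).toNat = D.Φ p.1 l := by
      rw [psi, Finset.sum_eq_single (⟨p, l⟩ : Σ _ : (Σ _ : Fin D.r, ℤ), ℕ)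
        (fun y hy hne => if_neg fun he => hne (htoNat hy hx he)) (fun hn => absurd hx hn),
        if_pos rfl]
    have hz : (((D.at' ⟨p, l⟩).toNat : ℕ) : ℤ) = D.at' ⟨p, l⟩ :=
      Int.toNat_of_nonneg (h.hrange _ hx).1
    rw [hpsi, hz]
  have hmove : ∀ u : ℝ, ∑ p ∈ D.pairs, D.branch m p u =
      (∑ p ∈ S₁, D.branch m (move m p) u) + T₂ u := by
    intro u
    rw [← Finset.sum_filter_add_sum_filter_not D.pairs
      (fun p => p.2 ∈ (D.G p.1).image (m * ·))]
    congr 1
    rw [show (D.pairs.filter fun p => p.2 ∈ (D.G p.1).image (m * ·)) = S₁.image (move m) by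
      ext ⟨k, f⟩
      simp only [hS₁, pairs, Finset.mem_filter, Finset.mem_sigma, Finset.mem_univ, true_and,
        Finset.mem_image, move, Sigma.mk.injEq, heq_eq_eq]
      constructor
      · rintro ⟨hf, g, hg, rfl⟩
        exact ⟨⟨k, g⟩, ⟨hg, hf⟩, rfl, rfl⟩
      · rintro ⟨⟨k', g⟩, ⟨hg, hf⟩, rfl, rfl⟩
        exact ⟨hf, g, hg, rfl⟩]
    refine Finset.sum_image fun p _ q _ he => ?_
    obtain ⟨k, g⟩ := p
    obtain ⟨k', g'⟩ := q
    simp only [move, Sigma.mk.injEq, heq_eq_eq] at he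
    obtain ⟨rfl, he⟩ := he
    rw [mul_left_cancel₀ h.hm he]
  have hmain : ∀ᵐ u : ℝ, (∑ t ∈ Finset.range D.N, e (m * D.psi t - t * u)) -
      (Real.sqrt D.N : ℂ) * D.amp u * e (m * D.sig u) = T₁ u + T₂ u + T₃ u - T₄ u - T₅ u := by
    filter_upwards [hit_sum_cases h] with u hu
    have htot : (∑ p ∈ D.pairs, D.target m p u) + T₅ u =
        (Real.sqrt D.N : ℂ) * D.amp u * e (m * D.sig u) := by
      rcases hu D.pairs subset_rfl with hz | ⟨p, hp, hp1, hq⟩
      · rw [Finset.sum_eq_zero fun p hp => by rw [target, hz p hp]; simp, zero_add]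
        have h0 : ∀ f : (Σ _ : Fin D.r, ℤ) → ℝ, ∑ p ∈ D.pairs, D.hitP p u * f p = 0 := fun f =>
          Finset.sum_eq_zero fun p hp => by rw [hz p hp, zero_mul]
        simp only [hT₅, amp, sig, h0, Finset.sum_eq_zero hz, mul_zero, e_zero, mul_one, sub_zero,
          Complex.ofReal_one, one_mul]
      · have h1 : ∀ f : (Σ _ : Fin D.r, ℤ) → ℝ, ∑ q ∈ D.pairs, D.hitP q u * f q = f p := fun f => by
          rw [Finset.sum_eq_single p (fun q hq' hne => by rw [hq q hq' hne, zero_mul])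
            (fun hn => absurd hp hn), hp1, one_mul]
        have h2 : ∑ q ∈ D.pairs, D.hitP q u = 1 := by simpa using h1 fun _ => 1
        rw [Finset.sum_eq_single p (fun q hq' hne => by rw [target, hq q hq' hne]; simp)
          (fun hn => absurd hp hn), target, hp1]
        simp only [hT₅, amp, sig, h1, h2, sub_self, Complex.ofReal_zero, zero_mul, add_zero,
          Complex.ofReal_one, one_mul]
        ring
    have hsplit : ∑ p ∈ D.pairs, D.target m p u = (∑ p ∈ S₁, D.target m p u) + T₄ u :=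
      (Finset.sum_filter_add_sum_filter_not _ _ _).symm
    rw [hsum, hmove, ← htot, hsplit, hT₁]
    simp only [Finset.sum_sub_distrib]
    ring
  -- square bounds of the errors
  have hN0 : (0 : ℝ) ≤ D.N := Nat.cast_nonneg _
  have hsqrt : Real.sqrt D.N ^ 2 = (D.N : ℝ) := Real.sq_sqrt hN0
  have ii : ∀ {f : ℝ → ℂ}, Measurable f → ∀ C : ℝ, (∀ u, ‖f u‖ ≤ C) →
      IntervalIntegrable (fun u => ‖f u‖ ^ 2) volume 0 1 := fun hf C hb =>
    ii_of_bound (hf.norm.pow_const 2) (C := C ^ 2) (fun u => by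
      rw [abs_of_nonneg (sq_nonneg _)]; exact pow_le_pow_left₀ (norm_nonneg _) (hb u) 2) 0 1
  have hmT : ∀ p, Measurable (D.target m p) := D.measurable_target h.hσ m
  have hmB := D.measurable_branch m
  have hbd : ∀ p u, ‖D.target m p u‖ ≤ Real.sqrt D.N := fun p u => by
    rw [norm_target]
    exact mul_le_of_le_one_left (Real.sqrt_nonneg _) (D.hitP_le_one p u)
  have m1 : Measurable T₁ :=
    Finset.measurable_sum _ fun p _ => (hmB _).sub (hmT p)
  have m2 : Measurable T₂ := Finset.measurable_sum _ fun p _ => hmB p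
  have m3 : Measurable T₃ := Finset.measurable_sum _ fun t _ =>
    measurable_const.mul (measurable_e.comp (measurable_const_mul _).neg)
  have m4 : Measurable T₄ := Finset.measurable_sum _ fun p _ => hmT p
  have m5 : Measurable T₅ := (Complex.measurable_ofReal.comp (measurable_const.sub
    (Finset.measurable_sum _ fun p _ => D.measurable_hitP p))).mul measurable_const
  have b1 : ∀ u, ‖T₁ u‖ ≤ ∑ p ∈ S₁, ((D.len p.1 : ℝ) + Real.sqrt D.N) := fun u =>
    (norm_sum_le _ _).trans (Finset.sum_le_sum fun p _ =>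
      (norm_sub_le _ _).trans (add_le_add (D.norm_branch_le m _ u) (hbd p u)))
  have b2 : ∀ u, ‖T₂ u‖ ≤ ∑ p ∈ B, (D.len p.1 : ℝ) := fun u =>
    (norm_sum_le _ _).trans (Finset.sum_le_sum fun p _ => D.norm_branch_le m p u)
  have b3 : ∀ u, ‖T₃ u‖ ≤ rest.card := fun u =>
    (norm_sum_le _ _).trans (le_of_eq (by simp [norm_e]))
  have b4 : ∀ u, ‖T₄ u‖ ≤ ∑ p ∈ S₂, Real.sqrt D.N := fun u =>
    (norm_sum_le _ _).trans (Finset.sum_le_sum fun p _ => hbd p u)
  have b5 : ∀ u, ‖T₅ u‖ ≤ (1 + (D.pairs.card : ℝ)) * Real.sqrt D.N := fun u => by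
    rw [hT₅, norm_mul, Complex.norm_real, Complex.norm_real, Real.norm_eq_abs, Real.norm_eq_abs,
      abs_of_nonneg (Real.sqrt_nonneg _)]
    refine mul_le_mul_of_nonneg_right ((abs_sub _ _).trans (add_le_add (by simp) ?_))
      (Real.sqrt_nonneg _)
    refine (Finset.abs_sum_le_sum_abs _ _).trans ?_
    rw [Finset.card_eq_sum_ones, Nat.cast_sum, Nat.cast_one]
    refine Finset.sum_le_sum fun p _ => ?_
    rw [abs_of_nonneg (D.hitP_nonneg p u)]
    exact D.hitP_le_one p u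
  have hlen := len_bounds h
  -- first error
  have q1 : ∫ u in (0 : ℝ)..1, ‖T₁ u‖ ^ 2 ≤ η * D.N := by
    have hp1 : ∀ p ∈ S₁, IntervalIntegrable
        (fun u => ‖D.branch m (move m p) u - D.target m p u‖ ^ 2) volume 0 1 := fun p _ =>
      ii ((hmB _).sub (hmT p)) _ fun u =>
        (norm_sub_le _ _).trans (add_le_add (D.norm_branch_le m _ u) (hbd p u))
    calc ∫ u in (0 : ℝ)..1, ‖T₁ u‖ ^ 2
        ≤ ∫ u in (0 : ℝ)..1,
            (S₁.card : ℝ) * ∑ p ∈ S₁, ‖D.branch m (move m p) u - D.target m p u‖ ^ 2 :=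
          intervalIntegral.integral_mono_on zero_le_one (ii m1 _ b1)
            (((IntervalIntegrable.sum S₁ hp1).const_mul (S₁.card : ℝ)).congr fun u _ => by simp)
            fun u _ => norm_sum_sq_le _ _
      _ = (S₁.card : ℝ) * ∑ p ∈ S₁, ∫ u in (0 : ℝ)..1,
            ‖D.branch m (move m p) u - D.target m p u‖ ^ 2 := by
          rw [intervalIntegral.integral_const_mul, intervalIntegral.integral_finsetSum hp1]
      _ ≤ (S₁.card : ℝ) * ∑ _p ∈ S₁, η / ((D.pairs.card : ℝ) + 1) ^ 2 * D.N :=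
          mul_le_mul_of_nonneg_left
            (Finset.sum_le_sum fun p hp => good_err h (hsub1 hp)) (Nat.cast_nonneg _)
      _ ≤ ((D.pairs.card : ℝ) + 1) ^ 2 * (η / ((D.pairs.card : ℝ) + 1) ^ 2 * D.N) := by
          rw [Finset.sum_const, nsmul_eq_mul, ← mul_assoc, ← sq]
          refine mul_le_mul_of_nonneg_right (pow_le_pow_left₀ (Nat.cast_nonneg _) ?_ 2)
            (by positivity)
          have : (S₁.card : ℝ) ≤ D.pairs.card := by exact_mod_cast Finset.card_le_card hsub1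
          linarith
      _ = η * D.N := by field_simp
  -- second error
  have q2 : ∫ u in (0 : ℝ)..1, ‖T₂ u‖ ^ 2 ≤ 2 * η * D.N := by
    rw [parseval_samples h B (Finset.filter_subset _ _)]
    calc ∑ p ∈ B, (D.len p.1 : ℝ) ≤ ∑ p ∈ B, (D.lam p.1 * D.N + 1) :=
          Finset.sum_le_sum fun p _ => (hlen p.1).2
      _ = (∑ p ∈ B, D.lam p.1) * D.N + B.card := by
          rw [Finset.sum_add_distrib, ← Finset.sum_mul]; simp
      _ ≤ η * D.N + η * D.N := by
          refine add_le_add (mul_le_mul_of_nonneg_right (le_trans (le_of_eq ?_) h.hbad) hN0)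
            (le_trans ?_ h.hsmall)
          · rw [hB, bad, Finset.sum_filter,
              sum_pairs (D := D) fun k f => if f ∉ (D.G k).image (m * ·) then D.lam k else 0]
            refine Finset.sum_congr rfl fun k _ => ?_
            rw [← Finset.sum_filter, Finset.sum_const, nsmul_eq_mul, card_bad_fibre h.hm]
          · exact_mod_cast Finset.card_le_card (Finset.filter_subset _ _)
      _ = 2 * η * D.N := by ring
  -- third error
  have hcov : (D.N : ℝ) * (1 - η) ≤ ∑ p ∈ D.pairs, (D.len p.1 : ℝ) := by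
    calc (D.N : ℝ) * (1 - η) ≤ D.N * ∑ k, ((D.G k).card : ℝ) * D.lam k :=
          mul_le_mul_of_nonneg_left h.hcover hN0
      _ = ∑ p ∈ D.pairs, D.lam p.1 * D.N := by
          rw [sum_pairs (D := D) fun k _ => D.lam k * (D.N : ℝ), Finset.mul_sum]
          refine Finset.sum_congr rfl fun k _ => ?_
          rw [Finset.sum_const, nsmul_eq_mul]; ring
      _ ≤ _ := Finset.sum_le_sum fun p _ => (hlen p.1).1
  have q3 : ∫ u in (0 : ℝ)..1, ‖T₃ u‖ ^ 2 ≤ η * D.N := by
    rw [hT₃, parseval rest (fun t : ℕ => (t : ℤ)) (fun a _ b _ hab => by simpa using hab)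
      (fun t => e (m * D.psi t))]
    simp only [norm_e, one_pow, Finset.sum_const, nsmul_eq_mul, mul_one]
    have hc : (img.card : ℝ) = ∑ p ∈ D.pairs, (D.len p.1 : ℝ) := by
      rw [himg, Finset.card_image_of_injOn htoNat, samples, Finset.card_sigma]
      push_cast
      simp
    have hle : img.card ≤ D.N := (Finset.card_le_card himgsub).trans (Finset.card_range _).le
    rw [hrest, Finset.card_sdiff_of_subset himgsub, Finset.card_range, Nat.cast_sub hle, hc]
    linarith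
  -- fourth error
  have hhit : ∀ S : Finset (Σ _ : Fin D.r, ℤ), IntervalIntegrable
      (fun u => ∑ p ∈ S, D.hitP p u) volume 0 1 := fun S =>
    (IntervalIntegrable.sum S fun p _ => ii_of_bound (D.measurable_hitP p) (C := 1) (fun u => by
      rw [abs_of_nonneg (D.hitP_nonneg p u)]; exact D.hitP_le_one p u) 0 1).congr
      fun u _ => by simp
  have hint : ∀ S : Finset (Σ _ : Fin D.r, ℤ), S ⊆ D.pairs →
      ∫ u in (0 : ℝ)..1, ∑ p ∈ S, D.hitP p u = ∑ p ∈ S, D.lam p.1 := fun S hS => by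
    rw [intervalIntegral.integral_finsetSum fun p _ => ii_of_bound (D.measurable_hitP p) (C := 1)
      (fun u => by rw [abs_of_nonneg (D.hitP_nonneg p u)]; exact D.hitP_le_one p u)
      0 1]
    exact Finset.sum_congr rfl fun p hp => integral_hitP h (hS hp)
  have q4 : ∫ u in (0 : ℝ)..1, ‖T₄ u‖ ^ 2 ≤ η * D.N := by
    calc ∫ u in (0 : ℝ)..1, ‖T₄ u‖ ^ 2 ≤ ∫ u in (0 : ℝ)..1, (D.N : ℝ) * ∑ p ∈ S₂, D.hitP p u := by
          refine intervalIntegral.integral_mono_ae zero_le_one (ii m4 _ b4)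
            ((hhit S₂).const_mul _) ?_
          filter_upwards [hit_sum_cases h] with u hu
          rcases hu S₂ hsub2 with hz | ⟨p, hp, hp1, hq⟩
          · rw [hT₄]
            simp only
            rw [Finset.sum_eq_zero fun p hp => by rw [target, hz p hp]; simp,
              Finset.sum_eq_zero hz]
            simp
          · rw [hT₄]
            simp only
            rw [Finset.sum_eq_single p (fun q hq' hne => by rw [target, hq q hq' hne]; simp)
                (fun hn => absurd hp hn),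
              Finset.sum_eq_single p (fun q hq' hne => hq q hq' hne) (fun hn => absurd hp hn),
              norm_target, hp1, one_mul, hsqrt, mul_one]
      _ ≤ η * D.N := by
          rw [intervalIntegral.integral_const_mul, hint S₂ hsub2, mul_comm]
          refine mul_le_mul_of_nonneg_right (le_trans (le_of_eq ?_) h.hbad) hN0
          rw [hS₂, Finset.sum_filter,
            sum_pairs (D := D) fun k g => if ¬(m * g ∈ D.G k) then D.lam k else 0]
          refine Finset.sum_congr rfl fun k _ => ?_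
          rw [← Finset.sum_filter, Finset.sum_const, nsmul_eq_mul]
  -- fifth error
  have q5 : ∫ u in (0 : ℝ)..1, ‖T₅ u‖ ^ 2 ≤ η * D.N := by
    calc ∫ u in (0 : ℝ)..1, ‖T₅ u‖ ^ 2
        ≤ ∫ u in (0 : ℝ)..1, (D.N : ℝ) * (1 - ∑ p ∈ D.pairs, D.hitP p u) := by
          refine intervalIntegral.integral_mono_ae zero_le_one (ii m5 _ b5)
            ((intervalIntegrable_const.sub (hhit D.pairs)).const_mul _) ?_
          filter_upwards [hit_sum_cases h] with u hu
          rw [hT₅]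
          simp only
          rcases hu D.pairs subset_rfl with hz | ⟨p, hp, hp1, hq⟩
          · rw [Finset.sum_eq_zero hz]
            simp [hsqrt, abs_of_nonneg (Real.sqrt_nonneg _)]
          · rw [Finset.sum_eq_single p (fun q hq' hne => hq q hq' hne) (fun hn => absurd hp hn),
              hp1]
            simp
      _ ≤ η * D.N := by
          rw [intervalIntegral.integral_const_mul,
            intervalIntegral.integral_sub intervalIntegrable_const (hhit D.pairs),
            hint D.pairs subset_rfl, intervalIntegral.integral_const, mul_comm]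
          refine mul_le_mul_of_nonneg_right ?_ hN0
          have hc := h.hcover
          rw [sum_pairs (D := D) fun k _ => D.lam k]
          simp only [Finset.sum_const, nsmul_eq_mul, sub_zero, smul_eq_mul, mul_one]
          linarith
  -- assembly
  have hI : IntervalIntegrable (fun u : ℝ => 5 * (‖T₁ u‖ ^ 2 + ‖T₂ u‖ ^ 2 + ‖T₃ u‖ ^ 2 +
      ‖T₄ u‖ ^ 2 + ‖T₅ u‖ ^ 2)) volume 0 1 :=
    (((((ii m1 _ b1).add (ii m2 _ b2)).add (ii m3 _ b3)).add (ii m4 _ b4)).add
      (ii m5 _ b5)).const_mul 5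
  have hW : Measurable fun u : ℝ => (∑ t ∈ Finset.range D.N, e (m * D.psi t - t * u)) -
      (Real.sqrt D.N : ℂ) * D.amp u * e (m * D.sig u) :=
    (Finset.measurable_sum _ fun t _ => measurable_e.comp
      (measurable_const.sub (measurable_const_mul _))).sub
      ((measurable_const.mul D.measurable_amp).mul
        (measurable_e.comp ((D.measurable_sig h.hσ).const_mul _)))
  calc ∫ u in (0 : ℝ)..1, ‖(∑ t ∈ Finset.range D.N, e (m * D.psi t - t * u)) -
        (Real.sqrt D.N : ℂ) * D.amp u * e (m * D.sig u)‖ ^ 2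
      ≤ ∫ u in (0 : ℝ)..1, 5 * (‖T₁ u‖ ^ 2 + ‖T₂ u‖ ^ 2 + ‖T₃ u‖ ^ 2 + ‖T₄ u‖ ^ 2 + ‖T₅ u‖ ^ 2) := by
        refine intervalIntegral.integral_mono_ae zero_le_one
          (ii hW ((D.N : ℝ) + Real.sqrt D.N) fun u => ?_) hI ?_
        · refine (norm_sub_le _ _).trans (add_le_add ?_ (le_of_eq ?_))
          · exact (norm_sum_le _ _).trans (le_of_eq (by simp [norm_e]))
          · rw [norm_mul, norm_mul, D.norm_amp, norm_e, Complex.norm_real, Real.norm_eq_abs,
              abs_of_nonneg (Real.sqrt_nonneg _), mul_one, mul_one]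
        filter_upwards [hmain] with u hu
        rw [hu]
        have h5 : ‖T₁ u + T₂ u + T₃ u - T₄ u - T₅ u‖ ≤
            ‖T₁ u‖ + ‖T₂ u‖ + ‖T₃ u‖ + ‖T₄ u‖ + ‖T₅ u‖ := by
          linarith [norm_sub_le (T₁ u + T₂ u + T₃ u - T₄ u) (T₅ u),
            norm_sub_le (T₁ u + T₂ u + T₃ u) (T₄ u), norm_add_le (T₁ u + T₂ u) (T₃ u),
            norm_add_le (T₁ u) (T₂ u)]
        refine (pow_le_pow_left₀ (norm_nonneg _) h5 2).trans ?_
        nlinarith [sq_nonneg (‖T₁ u‖ - ‖T₂ u‖), sq_nonneg (‖T₁ u‖ - ‖T₃ u‖),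
          sq_nonneg (‖T₁ u‖ - ‖T₄ u‖), sq_nonneg (‖T₁ u‖ - ‖T₅ u‖), sq_nonneg (‖T₂ u‖ - ‖T₃ u‖),
          sq_nonneg (‖T₂ u‖ - ‖T₄ u‖), sq_nonneg (‖T₂ u‖ - ‖T₅ u‖), sq_nonneg (‖T₃ u‖ - ‖T₄ u‖),
          sq_nonneg (‖T₃ u‖ - ‖T₅ u‖), sq_nonneg (‖T₄ u‖ - ‖T₅ u‖)]
    _ = 5 * ((∫ u in (0 : ℝ)..1, ‖T₁ u‖ ^ 2) + (∫ u in (0 : ℝ)..1, ‖T₂ u‖ ^ 2) +
        (∫ u in (0 : ℝ)..1, ‖T₃ u‖ ^ 2) + (∫ u in (0 : ℝ)..1, ‖T₄ u‖ ^ 2) +
        ∫ u in (0 : ℝ)..1, ‖T₅ u‖ ^ 2) := by
        have i12 := (ii m1 _ b1).add (ii m2 _ b2)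
        have i123 := i12.add (ii m3 _ b3)
        have i1234 := i123.add (ii m4 _ b4)
        rw [intervalIntegral.integral_const_mul, intervalIntegral.integral_add i1234 (ii m5 _ b5),
          intervalIntegral.integral_add i123 (ii m4 _ b4),
          intervalIntegral.integral_add i12 (ii m3 _ b3),
          intervalIntegral.integral_add (ii m1 _ b1) (ii m2 _ b2)]
    _ ≤ 30 * η * D.N := by nlinarith [q1, q2, q3, q4, q5]

end Layout

end Vale.Agent.P130.Lebesgue.Coherent
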