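import Vale.Agent.P110.Parseval
import Vale.Agent.P130.Lebesgue.Defs

/-!
# Characters, Parseval and periodic integrals for the coherent phase
-/

namespace Vale.Agent.P130.Lebesgue.Coherent

open MeasureTheory
open scoped ComplexConjugate

theorem norm_e (x : ℝ) : ‖e x‖ = 1 := by
  rw [e, Complex.norm_exp_ofReal_mul_I]

theorem e_zero : e 0 = 1 := by simp [e]

theorem e_add (x y : ℝ) : e (x + y) = e x * e y := by
  rw [e, e, e, ← Complex.exp_add]
  push_cast
  ring_nf

theorem e_int (z : ℤ) : e z = 1 := by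
  rw [e, show ((2 * Real.pi * (z : ℝ) : ℝ) : ℂ) * Complex.I
    = (z : ℂ) * (2 * (Real.pi : ℂ) * Complex.I) by push_cast; ring,
    Complex.exp_int_mul_two_pi_mul_I]

theorem e_neg (x : ℝ) : e (-x) = conj (e x) := by
  rw [e, e, ← Complex.exp_conj, map_mul, Complex.conj_ofReal, Complex.conj_I]
  push_cast
  ring_nf

theorem continuous_e : Continuous e := by unfold e; fun_prop

theorem measurable_e : Measurable e := continuous_e.measurable

/-- A bounded measurable function is integrable on every interval. -/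
theorem ii_of_bound {f : ℝ → ℝ} (hf : Measurable f) {C : ℝ} (hb : ∀ x, |f x| ≤ C) (a b : ℝ) :
    IntervalIntegrable f volume a b := by
  refine intervalIntegrable_iff.2 (IntegrableOn.of_bound measure_Ioc_lt_top
    hf.aestronglyMeasurable C (Filter.Eventually.of_forall fun x => ?_))
  rw [Real.norm_eq_abs]
  exact hb x

/-- Parseval for exponentials with distinct integer frequencies. -/
theorem parseval {ι : Type*} [DecidableEq ι] (S : Finset ι) (fr : ι → ℤ)
    (hfr : Set.InjOn fr S) (c : ι → ℂ) :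
    ∫ u in (0 : ℝ)..1, ‖∑ i ∈ S, c i * e (-((fr i : ℝ) * u))‖ ^ 2 = ∑ i ∈ S, ‖c i‖ ^ 2 := by
  classical
  set d : ℤ → ℂ := fun z => ∑ i ∈ S, if -fr i = z then c i else 0 with hd
  set T : Finset ℤ := S.image fun i => -fr i with hT
  have hinj : Set.InjOn (fun i => -fr i) S := fun i hi j hj h => hfr hi hj (neg_inj.1 h)
  have hval : ∀ i ∈ S, d (-fr i) = c i := fun i hi => by
    rw [hd]
    simp only
    rw [Finset.sum_eq_single i (fun j hj hji => if_neg fun h => hji (hfr hj hi (neg_inj.1 h)))
      (fun h => absurd hi h), if_pos rfl]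
  have key : ∀ u : ℝ, ∑ i ∈ S, c i * e (-((fr i : ℝ) * u)) =
      ∑ z ∈ T, d z * Complex.exp ((z : ℂ) * Complex.I * ((2 * Real.pi * u : ℝ) : ℂ)) := by
    intro u
    rw [hT, Finset.sum_image hinj]
    refine Finset.sum_congr rfl fun i hi => ?_
    rw [hval i hi, e]
    push_cast
    ring_nf
  simp only [key]
  rw [intervalIntegral.integral_comp_mul_left
    (fun θ : ℝ => ‖∑ z ∈ T, d z * Complex.exp ((z : ℂ) * Complex.I * (θ : ℂ))‖ ^ 2)
    (by positivity : (2 * Real.pi) ≠ 0), mul_zero, mul_one]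
  have hP := Vale.Agent.P110.integral_norm_sq_trig T d 0
  rw [zero_add] at hP
  rw [hP, smul_eq_mul, ← mul_assoc, inv_mul_cancel₀ (by positivity), one_mul, hT,
    Finset.sum_image hinj]
  exact Finset.sum_congr rfl fun i hi => by rw [hval i hi]

/-- An integer dilation does not change the integral of a periodic function over a period. -/
theorem integral_comp_dilate {F : ℝ → ℝ} (hp : Function.Periodic F 1) (hF : Measurable F) {C : ℝ}
    (hb : ∀ x, |F x| ≤ C) {d : ℤ} (hd : d ≠ 0) :
    ∫ u in (0 : ℝ)..1, F ((d : ℝ) * u) = ∫ u in (0 : ℝ)..1, F u := by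
  have hd' : (d : ℝ) ≠ 0 := by exact_mod_cast hd
  rw [intervalIntegral.integral_comp_mul_left F hd', mul_zero, mul_one]
  have h := hp.intervalIntegral_add_zsmul_eq d 0 (ii_of_bound hF hb)
  rw [zero_add, zero_add, zsmul_eq_mul, mul_one, zsmul_eq_mul] at h
  rw [h, smul_eq_mul, ← mul_assoc, inv_mul_cancel₀ hd', one_mul]

/-- The points whose fractional part after dilation lies in `[a, b)`. -/
noncomputable def hit (d a b : ℝ) (u : ℝ) : ℝ :=
  (Set.Ico a b).indicator (fun _ => (1 : ℝ)) (Int.fract (d * u))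

theorem measurable_hit (d a b : ℝ) : Measurable (hit d a b) :=
  (measurable_const.indicator measurableSet_Ico).comp (measurable_fract.comp (measurable_const_mul d))

theorem hit_nonneg (d a b u : ℝ) : 0 ≤ hit d a b u :=
  Set.indicator_nonneg (fun _ _ => zero_le_one) _

theorem hit_le_one (d a b u : ℝ) : hit d a b u ≤ 1 :=
  Set.indicator_le_self' (fun _ _ => zero_le_one) _

/-- A dilated interval has the measure of the interval. -/
theorem integral_hit {d : ℤ} (hd : d ≠ 0) {a b : ℝ} (ha : 0 ≤ a) (hab : a ≤ b) (hb : b ≤ 1) :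
    ∫ u in (0 : ℝ)..1, hit d a b u = b - a := by
  set G : ℝ → ℝ := fun t => (Set.Ico a b).indicator (fun _ => (1 : ℝ)) (Int.fract t) with hG
  have hp : Function.Periodic G 1 := fun t => by simp only [hG, Int.fract_add_one]
  have hm : Measurable G :=
    (measurable_const.indicator measurableSet_Ico).comp measurable_fract
  have hbd : ∀ t, |G t| ≤ 1 := fun t => by
    simp only [hG, Set.indicator_apply]
    split_ifs <;> simp
  show ∫ u in (0 : ℝ)..1, G ((d : ℝ) * u) = _
  rw [integral_comp_dilate hp hm hbd hd, intervalIntegral.integral_of_le zero_le_one,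
    ← integral_Ico_eq_integral_Ioc]
  rw [setIntegral_congr_fun measurableSet_Ico (g := (Set.Ico a b).indicator fun _ => (1 : ℝ))
    (fun t ht => by simp only [hG, Int.fract_eq_self.2 ⟨ht.1, ht.2⟩]),
    setIntegral_indicator measurableSet_Ico, Set.inter_eq_right.2 (Set.Ico_subset_Ico ha hb)]
  simp [Real.volume_real_Ico_of_le hab]

/-- Almost everywhere properties transfer along nonzero dilations. -/
theorem ae_comp_dilate {p : ℝ → Prop} (h : ∀ᵐ y : ℝ, p y) {d : ℝ} (hd : d ≠ 0) :
    ∀ᵐ u : ℝ, p (d * u) := by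
  have hq : Measure.QuasiMeasurePreserving (fun u : ℝ => d * u) volume volume :=
    ⟨measurable_const_mul d, by
      rw [Real.map_volume_mul_left hd]
      exact Measure.smul_absolutelyContinuous⟩
  exact hq.ae h

/-- `|Σ|² ≤ card · Σ|·|²` for complex sums. -/
theorem norm_sum_sq_le {ι : Type*} (S : Finset ι) (z : ι → ℂ) :
    ‖∑ i ∈ S, z i‖ ^ 2 ≤ S.card * ∑ i ∈ S, ‖z i‖ ^ 2 :=
  (pow_le_pow_left₀ (norm_nonneg _) (norm_sum_le S z) 2).trans sq_sum_le_card_mul_sum_sq

end Vale.Agent.P130.Lebesgue.Coherent
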